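import Vale.Agent.P322.Main

namespace Vale.Agent.Results.P322.BlockOdd

open Vale.Agent.P322

theorem result (n : ℕ) (f : (Fin n → Bool) → Bool) (T : (Fin n → Bool) → Finset (Fin n))
    (hne : ∀ x, (T x).Nonempty)
    (hblock : ∀ x y, (∀ i ∉ T x, y i = x i) → T y = T x)
    (hodd : ∀ x, f (flip (T x) x) = !f x)
    (ε : ℝ) (h0 : 0 ≤ ε) (h1 : ε ≤ 1 / 2) :
    mutInf ε f ≤ 1 - h2 ε ∧
      √(ε * (1 - ε)) ≤ ∑ y, √(joint ε f true y * joint ε f false y) := by
  have hH := hellinger T hblock h0 (by linarith) f hne hodd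
  refine ⟨ck_of_hellinger h0 h1 f (balanced T hblock f hodd) hH, ?_⟩
  have : ∀ y, √(joint ε f true y * joint ε f false y) =
      1 / 2 ^ n * √(post ε f true y * post ε f false y) := by
    intro y
    rw [joint_eq, joint_eq, mul_mul_mul_comm,
      Real.sqrt_mul (x := 1 / 2 ^ n * (1 / 2 ^ n)) (by positivity),
      Real.sqrt_mul_self (by positivity)]
  simp_rw [this]
  rw [← Finset.mul_sum, one_div, le_inv_mul_iff₀ (by positivity)]
  exact hH

end Vale.Agent.Results.P322.BlockOdd
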